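import Vale.Agent.P181.TS.H91.Mat

/-!
# P181, FD2: the orbit inequality for long columns, design with codes for the complements

`M` is the `b × b` matrix of the points `pt` over `ℂ[t]`; the configuration is its adjugate (rows in
reverse order). By Jacobi's identity the first minors of the adjugate at a column are, up to sign
and powers of `det M`, the first minors of `M` at the complement of the column.
-/

set_option autoImplicit false

namespace Vale.Agent.P181.FD.H340

open Finset Polynomial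
open Vale.Agent.P181 Vale.Agent.P181.H280 Vale.Agent.P181.FR Vale.Agent.P181.H188W
open Vale.Agent.P181.T4 Vale.Agent.P181.H463 Vale.Agent.P181.H59 Vale.Agent.P181.H261
open Vale.Agent.P181.TS Vale.Agent.P181.TS.H91

/-- the determinant of a matrix whose rows and columns are renamed -/
theorem det_sub {K κ : Type*} [CommRing K] [Fintype κ] [DecidableEq κ] {b : ℕ}
    (M : Matrix (Fin b) (Fin b) K) (E F : κ ≃ Fin b) :
    ∃ ε : K, (ε = 1 ∨ ε = -1) ∧ (M.submatrix E F).det = ε * M.det := by
  have h1 : M.submatrix E F = (M.submatrix (F.symm.trans E) id).submatrix F F := by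
    ext i j
    simp
  have h2 := Matrix.det_permute (F.symm.trans E) M
  refine ⟨((Equiv.Perm.sign (F.symm.trans E) : ℤˣ) : ℤ), ?_, ?_⟩
  · rcases Int.units_eq_one_or (Equiv.Perm.sign (F.symm.trans E)) with h | h
    · left
      rw [h]
      simp
    · right
      rw [h]
      simp
  · rw [h1, Matrix.det_submatrix_equiv_self]
    exact h2

/-- **Jacobi's identity** for complementary minors of the adjugate -/
theorem jacobi {K : Type*} [CommRing K] {b l m : ℕ} (M : Matrix (Fin b) (Fin b) K)
    (E F : Fin l ⊕ Fin m ≃ Fin b) : ∃ ε : K, (ε = 1 ∨ ε = -1) ∧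
    (Matrix.of fun a s : Fin l => M.adjugate (F (Sum.inl s)) (E (Sum.inl a))).det * (ε * M.det) =
      M.det ^ l * (Matrix.of fun a s : Fin m => M (E (Sum.inr a)) (F (Sum.inr s))).det := by
  obtain ⟨ε, hε, h⟩ := det_sub M E F
  refine ⟨ε, hε, ?_⟩
  set N11 : Matrix (Fin l) (Fin l) K :=
    Matrix.of fun s a : Fin l => M.adjugate (F (Sum.inl s)) (E (Sum.inl a)) with hN11
  set N12 : Matrix (Fin l) (Fin m) K :=
    Matrix.of fun (s : Fin l) (a : Fin m) => M.adjugate (F (Sum.inl s)) (E (Sum.inr a)) with hN12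
  set M21 : Matrix (Fin m) (Fin l) K :=
    Matrix.of fun (a : Fin m) (s : Fin l) => M (E (Sum.inr a)) (F (Sum.inl s)) with hM21
  set M22 : Matrix (Fin m) (Fin m) K :=
    Matrix.of fun a s : Fin m => M (E (Sum.inr a)) (F (Sum.inr s)) with hM22
  have hmul : Matrix.fromBlocks N11 N12 0 1 * M.submatrix E F =
      Matrix.fromBlocks (M.det • (1 : Matrix (Fin l) (Fin l) K)) 0 M21 M22 := by
    have hrow : ∀ (s : Fin l) (z : Fin l ⊕ Fin m),
        ∑ x, Matrix.fromBlocks N11 N12 (0 : Matrix (Fin m) (Fin l) K)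
          (1 : Matrix (Fin m) (Fin m) K) (Sum.inl s) x * M.submatrix E F x z =
          (M.det • (1 : Matrix (Fin b) (Fin b) K)) (F (Sum.inl s)) (F z) := by
      intro s z
      rw [← Matrix.adjugate_mul, Matrix.mul_apply, ← Equiv.sum_comp E]
      refine sum_congr rfl fun x _ => ?_
      rcases x with x | x
      · rfl
      · rfl
    ext x z
    rw [Matrix.mul_apply]
    rcases x with s | a
    · rw [hrow]
      rcases z with s' | a'
      · rw [Matrix.smul_apply, Matrix.fromBlocks_apply₁₁, Matrix.smul_apply]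
        congr 1
        rw [Matrix.one_apply, Matrix.one_apply]
        by_cases hs : s = s'
        · rw [if_pos hs, if_pos (by rw [hs])]
        · rw [if_neg hs, if_neg (fun h' => hs (Sum.inl_injective (F.injective h')))]
      · rw [Matrix.smul_apply, Matrix.fromBlocks_apply₁₂, Matrix.one_apply,
          if_neg (fun h' => Sum.inl_ne_inr (F.injective h')), smul_zero, Matrix.zero_apply]
    · rw [Fintype.sum_sum_type]
      have e1 : ∑ x : Fin l, Matrix.fromBlocks N11 N12 0 1 (Sum.inr a) (Sum.inl x) *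
          M.submatrix E F (Sum.inl x) z = 0 := sum_eq_zero fun x _ => by
        rw [Matrix.fromBlocks_apply₂₁, Matrix.zero_apply, zero_mul]
      have e2 : ∑ x : Fin m, Matrix.fromBlocks N11 N12 0 1 (Sum.inr a) (Sum.inr x) *
          M.submatrix E F (Sum.inr x) z = M.submatrix E F (Sum.inr a) z := by
        rw [sum_eq_single a]
        · rw [Matrix.fromBlocks_apply₂₂, Matrix.one_apply_eq, one_mul]
        · intro x _ hx
          rw [Matrix.fromBlocks_apply₂₂, Matrix.one_apply_ne (Ne.symm hx), zero_mul]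
        · intro hx
          exact absurd (mem_univ a) hx
      rw [e1, e2, zero_add]
      rcases z with s' | a'
      · rfl
      · rfl
  have hdet := congrArg Matrix.det hmul
  rw [Matrix.det_mul, Matrix.det_fromBlocks_zero₂₁, Matrix.det_one, mul_one, h,
    Matrix.det_fromBlocks_zero₁₂, Matrix.det_smul, Matrix.det_one, mul_one, Fintype.card_fin]
    at hdet
  have htr : (Matrix.of fun a s : Fin l => M.adjugate (F (Sum.inl s)) (E (Sum.inl a))).det =
      N11.det := by
    rw [← Matrix.det_transpose]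
    rfl
  rw [htr]
  exact hdet

/-- the rows `b - 1, b - 2, ..` and the rows `0, 1, ..` -/
theorem exF {b l m : ℕ} (h : l + m = b) : ∃ F : Fin l ⊕ Fin m ≃ Fin b,
    (∀ s, (F (Sum.inl s) : ℕ) = b - 1 - s) ∧ ∀ s, (F (Sum.inr s) : ℕ) = s := by
  subst h
  refine ⟨(Equiv.sumCongr (Equiv.refl _) Fin.revPerm).trans (finSumFinEquiv.trans Fin.revPerm),
    ?_, ?_⟩
  · intro s
    have hs := s.2
    simp only [Equiv.trans_apply, Equiv.sumCongr_apply, Sum.map_inl, Equiv.refl_apply,
      finSumFinEquiv_apply_left, Fin.revPerm_apply, Fin.val_rev, Fin.val_castAdd]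
    omega
  · intro s
    have hs := s.2
    simp only [Equiv.trans_apply, Equiv.sumCongr_apply, Sum.map_inr,
      finSumFinEquiv_apply_right, Fin.revPerm_apply, Fin.val_rev, Fin.val_natAdd]
    omega

/-- a column and its complement -/
theorem exE {b l m : ℕ} (h : l + m = b) (e : Fin l → Fin b) (e' : Fin m → Fin b)
    (he : Function.Injective e) (he' : Function.Injective e') (hd : ∀ a a', e a ≠ e' a') :
    ∃ E : Fin l ⊕ Fin m ≃ Fin b, (∀ a, E (Sum.inl a) = e a) ∧ ∀ a, E (Sum.inr a) = e' a := by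
  have hb : Function.Bijective (Sum.elim e e') := by
    rw [Fintype.bijective_iff_injective_and_card]
    refine ⟨he.sumElim he' hd, ?_⟩
    rw [Fintype.card_sum, Fintype.card_fin, Fintype.card_fin, Fintype.card_fin, h]
  exact ⟨Equiv.ofBijective _ hb, fun a => rfl, fun a => rfl⟩

/-- the matrix of the points -/
noncomputable def MM {b R : ℕ} (r : ℕ) (cl : Fin b → Fin R) (y : Fin b → Fin R → Bool)
    (G : Fin b → ℕ → ℂ) : Matrix (Fin b) (Fin b) ℂ[X] :=
  Matrix.of fun u i => pt r cl y G b u i

theorem MM_mn {b R m : ℕ} (r : ℕ) (cl : Fin b → Fin R) (y : Fin b → Fin R → Bool)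
    (G : Fin b → ℕ → ℂ) (e : Fin m → Fin b) (f : Fin m → Fin b) (hf : ∀ s, (f s : ℕ) = s) :
    (Matrix.of fun a s : Fin m => MM r cl y G (e a) (f s)).det = mn r cl y G m e := by
  rw [mn]
  congr 1
  ext1 a s
  rw [Matrix.of_apply, Matrix.of_apply, MM, Matrix.of_apply]
  have hfs : f s = ⟨(s : ℕ), by rw [← hf s]; exact (f s).2⟩ := Fin.ext (hf s)
  rw [hfs]
  rfl

theorem mn_congr {b R m : ℕ} (r : ℕ) (cl : Fin b → Fin R) (y : Fin b → Fin R → Bool)
    (G G' : Fin b → ℕ → ℂ) (e : Fin m → Fin b) (h : ∀ u i, i < m → G u i = G' u i) :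
    mn r cl y G m e = mn r cl y G' m e := by
  rw [mn, mn]
  congr 1
  ext1 a s
  rw [Matrix.of_apply, Matrix.of_apply, pt, pt, h _ _ s.2]

/-- the later rows can be chosen such that the whole matrix is nonsingular -/
theorem exG {b R L l : ℕ} (r : ℕ) (cl : Fin b → Fin R) (y : Fin b → Fin R → Bool)
    (G : Fin b → ℕ → ℂ) (h : l + L = b) (hR : R ≤ L) (e : Fin l → Fin b) (e' : Fin L → Fin b)
    (he : Function.Injective e) (he' : Function.Injective e') (hd : ∀ a a', e a ≠ e' a')
    (hG : mn r cl y G L e' ≠ 0) :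
    ∃ G' : Fin b → ℕ → ℂ, (∀ u i, i < L → G u i = G' u i) ∧ (MM r cl y G').det ≠ 0 := by
  classical
  obtain ⟨F, hF1, hF2⟩ := exF h
  obtain ⟨E, hE1, hE2⟩ := exE h e e' he he' hd
  let G' : Fin b → ℕ → ℂ := fun u i => if i < L then G u i else
    if h : i < b then (if E (F.symm ⟨i, h⟩) = u then 1 else 0) else 0
  have hG' : ∀ u i, i < L → G u i = G' u i := by
    intro u i hi
    simp only [G']
    rw [if_pos hi]
  refine ⟨G', hG', ?_⟩
  intro h0
  obtain ⟨ε, -, h1⟩ := det_sub (MM r cl y G') E F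
  rw [h0, mul_zero] at h1
  have h2 : (MM r cl y G').submatrix E F = Matrix.fromBlocks 1
      (Matrix.of fun (a : Fin l) (s : Fin L) => MM r cl y G' (E (Sum.inl a)) (F (Sum.inr s))) 0
      (Matrix.of fun a s : Fin L => MM r cl y G' (e' a) (F (Sum.inr s))) := by
    have hcol : ∀ x (s : Fin l), MM r cl y G' (E x) (F (Sum.inl s)) =
        if x = Sum.inl s then 1 else 0 := by
      intro x s
      have hs : L ≤ (F (Sum.inl s) : ℕ) := by
        rw [hF1]
        have := s.2
        omega
      rw [MM, Matrix.of_apply, pt, dif_neg (by omega)]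
      simp only [G']
      rw [if_neg (by omega), dif_pos (F (Sum.inl s)).2, Fin.eta, Equiv.symm_apply_apply]
      by_cases hx : x = Sum.inl s
      · rw [if_pos hx, if_pos (by rw [hx]), C_1]
      · rw [if_neg hx, if_neg (fun h' => hx (E.injective h').symm), C_0]
    ext1 x z
    rcases x with a | a <;> rcases z with s | s
    · rw [Matrix.submatrix_apply, hcol, Matrix.fromBlocks_apply₁₁, Matrix.one_apply]
      by_cases has : a = s
      · rw [if_pos has, if_pos (by rw [has])]
      · rw [if_neg has, if_neg (fun h' => has (Sum.inl_injective h'))]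
    · rfl
    · rw [Matrix.submatrix_apply, hcol, Matrix.fromBlocks_apply₂₁,
        if_neg (fun h' => Sum.inl_ne_inr h'.symm), Matrix.zero_apply]
    · rw [Matrix.submatrix_apply, Matrix.fromBlocks_apply₂₂, Matrix.of_apply, hE2]
  rw [h2, Matrix.det_fromBlocks_zero₂₁, Matrix.det_one, one_mul,
    MM_mn r cl y G' e' (fun s => F (Sum.inr s)) hF2, ← mn_congr r cl y G G' e' hG'] at h1
  exact hG h1

/-- the row of the adjugate -/
noncomputable def rowF {b : ℕ} (hb : 0 < b) (i : ℕ) : Fin b := ⟨b - 1 - i, by omega⟩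

/-- **the matrix of the products of minors of the adjugate is nonsingular** -/
theorem keyD (hO1 : Ord1) (hO2 : Ord2) {b r g N : ℕ} (hb : 0 < b) {len : Fin N → ℕ}
    (cl : Fin b → Fin (g * r)) (y : Fin b → Fin (g * r) → Bool) (G : Fin b → ℕ → ℂ) (hr : 0 < r)
    (hR : ∀ c, g * r ≤ b - len c) (hlb : ∀ c, len c ≤ b)
    (hD : ∀ _ : Fin N, (MM r cl y G).det ≠ 0)
    (B : Equiv.Perm (Fin b) → Fin N → Finset (Fin b))
    (u : Equiv.Perm (Fin b) → (c : Fin N) → Fin (len c) → Fin b)
    (v : Equiv.Perm (Fin b) → (c : Fin N) → Fin (b - len c) → Fin b)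
    (hu : ∀ τ c, Function.Injective (u τ c)) (hv : ∀ τ c, Function.Injective (v τ c))
    (huv : ∀ τ c s s', u τ c s ≠ v τ c s') (hvI : ∀ τ c, univ.image (v τ c) = B τ c)
    (hG : ∀ τ c, (mn r cl y G (b - len c) (v τ c)).coeff (miss cl (B τ c)).card ≠ 0)
    (hA4 : ∀ τ, ∀ ρ : Equiv.Perm (Fin b), ρ ≠ 1 →
        (∑ c, (miss cl (B τ c)).card < ∑ c, (miss cl ((B τ c).image ρ)).card) ∨
        ((∑ c, (miss cl (B τ c)).card ≤ ∑ c, (miss cl ((B τ c).image ρ)).card) ∧
          ∃ c, Sing r cl y ((B τ c).image ρ))) :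
    (Matrix.of fun τ σ : Equiv.Perm (Fin b) =>
      ∏ c, (Matrix.of fun a s : Fin (len c) => (MM r cl y G).adjugate (rowF hb s)
        ((σ * τ⁻¹) (u τ c a))).det).det ≠ 0 := by
  classical
  set D := (MM r cl y G).det with hDdef
  -- Jacobi's identity
  have hJ : ∀ (τ σ : Equiv.Perm (Fin b)) (c : Fin N), ∃ ε : ℂ[X], (ε = 1 ∨ ε = -1) ∧
      (Matrix.of fun a s : Fin (len c) => (MM r cl y G).adjugate (rowF hb s)
        ((σ * τ⁻¹) (u τ c a))).det * D =
      D ^ (len c) * (ε * mn r cl y G (b - len c) (fun s => (σ * τ⁻¹) (v τ c s))) := by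
    intro τ σ c
    have hlc : len c + (b - len c) = b := by
      have := hlb c
      omega
    obtain ⟨F, hF1, hF2⟩ := exF hlc
    obtain ⟨E, hE1, hE2⟩ := exE hlc (fun a => (σ * τ⁻¹) (u τ c a)) (fun a => (σ * τ⁻¹) (v τ c a))
      ((σ * τ⁻¹).injective.comp (hu τ c)) ((σ * τ⁻¹).injective.comp (hv τ c))
      (fun a a' h => huv τ c a a' ((σ * τ⁻¹).injective h))
    obtain ⟨ε, hε, h⟩ := jacobi (MM r cl y G) E F
    refine ⟨ε, hε, ?_⟩
    have e1 : (Matrix.of fun a s : Fin (len c) => (MM r cl y G).adjugate (F (Sum.inl s))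
        (E (Sum.inl a))) = Matrix.of fun a s : Fin (len c) => (MM r cl y G).adjugate (rowF hb s)
        ((σ * τ⁻¹) (u τ c a)) := by
      ext1 a s
      rw [Matrix.of_apply, Matrix.of_apply, hE1]
      congr 1
      exact Fin.ext (hF1 s)
    have e2 : (Matrix.of fun a s : Fin (b - len c) => MM r cl y G (E (Sum.inr a))
        (F (Sum.inr s))).det = mn r cl y G (b - len c) (fun s => (σ * τ⁻¹) (v τ c s)) := by
      rw [← MM_mn r cl y G (fun s => (σ * τ⁻¹) (v τ c s)) (fun s => F (Sum.inr s)) hF2]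
      congr 1
      ext1 a s
      rw [Matrix.of_apply, Matrix.of_apply, hE2]
    rw [e1, e2, ← hDdef] at h
    have hεε : ε * ε = 1 := by
      rcases hε with h' | h' <;> rw [h'] <;> ring
    calc _ = ε * ((Matrix.of fun a s : Fin (len c) => (MM r cl y G).adjugate (rowF hb s)
          ((σ * τ⁻¹) (u τ c a))).det * (ε * D)) := by
          linear_combination (-(Matrix.of fun a s : Fin (len c) =>
            (MM r cl y G).adjugate (rowF hb s) ((σ * τ⁻¹) (u τ c a))).det * D) * hεε
      _ = _ := by rw [h]; ring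
  choose ε hε hJ using hJ
  -- the orders
  have hvI2 : ∀ τ c (ρ : Equiv.Perm (Fin b)), univ.image (fun s => ρ (v τ c s)) =
      (B τ c).image ρ := by
    intro τ c ρ
    rw [← hvI τ c, image_image]
    rfl
  have hP0 : ∀ τ (ρ : Equiv.Perm (Fin b)) c,
      (X : ℂ[X]) ^ (miss cl ((B τ c).image ρ)).card ∣
        mn r cl y G (b - len c) (fun s => ρ (v τ c s)) := by
    intro τ ρ c
    have h1 := hO1 b (g * r) r (b - len c) cl y G (fun s => ρ (v τ c s)) (hR c)
      (ρ.injective.comp (hv τ c))
    rwa [hvI2] at h1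
  have hid : ∀ τ : Equiv.Perm (Fin b), τ * τ⁻¹ = 1 := fun τ => mul_inv_cancel τ
  have hQ : (Matrix.of fun τ σ : Equiv.Perm (Fin b) =>
      ∏ c, (ε τ σ c * mn r cl y G (b - len c) (fun s => (σ * τ⁻¹) (v τ c s)))).det ≠ 0 := by
    refine det_ne (fun τ σ : Equiv.Perm (Fin b) =>
        ∏ c, (ε τ σ c * mn r cl y G (b - len c) (fun s => (σ * τ⁻¹) (v τ c s))))
      (fun τ => ∑ c, (miss cl (B τ c)).card) ?_ ?_ ?_
    · intro τ
      refine prod_dvd univ _ _ fun c _ => ?_
      have h1 := hP0 τ 1 c
      rw [Equiv.Perm.coe_one, image_id] at h1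
      rw [hid]
      exact Dvd.dvd.mul_left h1 _
    · intro τ
      refine prod_low univ _ _ (fun c _ => ?_) (fun c _ => ?_)
      · have h1 := hP0 τ 1 c
        rw [Equiv.Perm.coe_one, image_id] at h1
        rw [hid]
        exact Dvd.dvd.mul_left h1 _
      · rw [hid]
        have h1 := hG τ c
        rcases hε τ τ c with h | h
        · rw [h, one_mul]
          exact h1
        · rw [h, neg_one_mul, coeff_neg]
          exact neg_ne_zero.2 h1
    · intro τ σ hne
      have hρ : σ * τ⁻¹ ≠ 1 := fun h => hne (mul_inv_eq_one.1 h)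
      generalize ε τ σ = ε'
      generalize σ * τ⁻¹ = ρ at hρ
      rcases hA4 τ ρ hρ with h | ⟨h, c0, hc0⟩
      · exact (pow_dvd_pow _ h).trans (prod_dvd univ _ _ fun c _ =>
          Dvd.dvd.mul_left (hP0 τ ρ c) _)
      · have h1 : (X : ℂ[X]) ^ (∑ c, ((miss cl ((B τ c).image ρ)).card +
            if c = c0 then 1 else 0)) ∣
            ∏ c, (ε' c * mn r cl y G (b - len c) (fun s => ρ (v τ c s))) := by
          refine prod_dvd univ _ _ fun c _ => ?_
          split_ifs with hc
          · subst hc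
            have h2 := hO2 b r g (b - len c) cl y G (fun s => ρ (v τ c s)) hr (hR c)
              (ρ.injective.comp (hv τ c)) (by rw [hvI2]; exact hc0)
            rw [hvI2] at h2
            exact Dvd.dvd.mul_left h2 _
          · exact Dvd.dvd.mul_left (hP0 τ ρ c) _
        rw [sum_add_distrib, sum_ite_eq' univ c0 fun _ => 1, if_pos (mem_univ _)] at h1
        exact (pow_dvd_pow _ (by omega)).trans h1
  -- conclusion
  intro h0
  have hPQ : (D ^ N) • (Matrix.of fun τ σ : Equiv.Perm (Fin b) =>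
      ∏ c, (Matrix.of fun a s : Fin (len c) => (MM r cl y G).adjugate (rowF hb s)
        ((σ * τ⁻¹) (u τ c a))).det) = (∏ c, D ^ len c) • (Matrix.of fun τ σ :
          Equiv.Perm (Fin b) =>
      ∏ c, (ε τ σ c * mn r cl y G (b - len c) (fun s => (σ * τ⁻¹) (v τ c s)))) := by
    ext1 τ σ
    rw [Matrix.smul_apply, Matrix.smul_apply, Matrix.of_apply, Matrix.of_apply, smul_eq_mul,
      smul_eq_mul, ← prod_mul_distrib, ← prod_congr rfl fun c _ => hJ τ σ c, prod_mul_distrib,
      prod_const, card_univ, Fintype.card_fin, mul_comm]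
  have hdet := congrArg Matrix.det hPQ
  rw [Matrix.det_smul, Matrix.det_smul, h0, mul_zero] at hdet
  refine mul_ne_zero (pow_ne_zero _ ?_) hQ hdet.symm
  exact prod_ne_zero_iff.2 fun c _ => pow_ne_zero _ (hD c)

/-- the orbit inequality for long columns -/
def MatDualT : Prop :=
  ∀ (n k b N : ℕ) (len : Fin N → ℕ) (lam η : Fin n → ℕ), 0 < b →
    TDes b N (fun c => b - len c) → (∀ c, len c ≤ n) → Antitone η →
    (∀ i : Fin n, (univ.filter fun c => (i : ℕ) < len c).card + η i = lam i) →
    ∑ i, lam i = k * b →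
    gt n b η ≤ ((∑ i, η i) + b - 1).choose (b - 1) * (b.factorial * plethMult b k n lam)

/-- **[FD2]** -/
theorem matDualTStep : Ord1 → Ord2 → Ord3 → MatDualT := by
  classical
  intro hO1 hO2 hO3 n k b N len lam η hb hDes hlen hη hcol hsum
  obtain ⟨r, g, cl, y, hr, hR, hst⟩ := hDes
  have hgr : 0 < g * r := lt_of_le_of_lt (Nat.zero_le _) (cl ⟨0, hb⟩).2
  have hlenb : ∀ c, len c ≤ b := fun c => by
    have h1 : g * r ≤ b - len c := hR c
    omega
  obtain ⟨d, hd, hds⟩ := Mat5.exists_balanced b (∑ i, η i) hb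
  -- sizes
  have hlenC : ∀ c, (univ.filter fun i : Fin n => (i : ℕ) < len c).card = len c := by
    intro c
    rw [Fin.card_filter_val_lt, min_eq_right (hlen c)]
  have hsum2 : ∑ c, len c + ∑ i, η i = k * b := by
    rw [← hsum]
    have h1 : ∑ i, lam i = ∑ i : Fin n, ((univ.filter fun c => (i : ℕ) < len c).card + η i) :=
      sum_congr rfl fun i _ => (hcol i).symm
    rw [h1, sum_add_distrib]
    congr 1
    calc ∑ c, len c = ∑ c, (univ.filter fun i : Fin n => (i : ℕ) < len c).card :=
          sum_congr rfl fun c _ => (hlenC c).symm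
      _ = ∑ i : Fin n, (univ.filter fun c => (i : ℕ) < len c).card := by
          simp only [card_filter]
          exact sum_comm
  have hda : ∀ p, d p ≤ k := by
    intro p
    by_contra h
    push Not at h
    have h1 : ∀ q, k ≤ d q := fun q => by have := hd p q; omega
    have h2 : ∑ q : Fin b, k < ∑ q, d q :=
      sum_lt_sum (fun q _ => h1 q) ⟨p, mem_univ p, h⟩
    rw [sum_const, card_univ, Fintype.card_fin, smul_eq_mul, hds, mul_comm] at h2
    omega
  have hsum3 : ∑ p, (k - d p) = ∑ c, len c := by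
    have h2 : ∑ p, (k - d p) + ∑ p, d p = k * b := by
      rw [← sum_add_distrib]
      have h3 : ∀ p : Fin b, k - d p + d p = k := fun p => Nat.sub_add_cancel (hda p)
      rw [sum_congr rfl fun p _ => h3 p, sum_const, card_univ, Fintype.card_fin, smul_eq_mul,
        mul_comm]
    omega
  have hadN : ∀ p, k - d p ≤ N := by
    intro p
    by_contra h
    push Not at h
    have h1 : ∀ q, N ≤ k - d q := fun q => by
      have := hd q p
      have := hda q
      have := hda p
      omega
    have h2 : ∑ q : Fin b, N < ∑ q, (k - d q) :=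
      sum_lt_sum (fun q _ => h1 q) ⟨p, mem_univ p, h⟩
    have h3 : ∑ c, len c ≤ ∑ _c : Fin N, b := sum_le_sum fun c _ => hlenb c
    rw [sum_const, card_univ, Fintype.card_fin, smul_eq_mul] at h2 h3
    rw [hsum3, mul_comm] at h2
    omega
  -- the degree functions of the complements
  have hgd1 : ∀ τ : Equiv.Perm (Fin b), ∀ p q,
      N - (k - d (τ.symm p)) ≤ N - (k - d (τ.symm q)) + 1 := by
    intro τ p q
    have h1 := hd (τ.symm p) (τ.symm q)
    have h2 := hda (τ.symm p)
    have h3 := hda (τ.symm q)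
    omega
  have hgd2 : ∀ τ : Equiv.Perm (Fin b), ∑ p, (N - (k - d (τ.symm p))) =
      ∑ c, (b - len c) := by
    intro τ
    have h1 : ∑ p, (N - (k - d (τ.symm p))) = ∑ p, (N - (k - d p)) :=
      Equiv.sum_comp τ.symm fun p => N - (k - d p)
    have h2 : ∑ p, (N - (k - d p)) + ∑ p, (k - d p) = N * b := by
      rw [← sum_add_distrib]
      have h3 : ∀ p : Fin b, N - (k - d p) + (k - d p) = N :=
        fun p => Nat.sub_add_cancel (hadN p)
      rw [sum_congr rfl fun p _ => h3 p, sum_const, card_univ, Fintype.card_fin, smul_eq_mul,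
        mul_comm]
    have h4 : ∑ c, (b - len c) + ∑ c, len c = N * b := by
      rw [← sum_add_distrib]
      have h3 : ∀ c : Fin N, b - len c + len c = b := fun c => Nat.sub_add_cancel (hlenb c)
      rw [sum_congr rfl fun c _ => h3 c, sum_const, card_univ, Fintype.card_fin, smul_eq_mul]
    rw [h1]
    omega
  have hex := fun τ : Equiv.Perm (Fin b) =>
    hst (fun p => N - (k - d (τ.symm p))) (hgd1 τ) (hgd2 τ)
  choose B hB1 hB2 hB3 hB4 using hex
  have hAcard : ∀ τ c, ((B τ c)ᶜ : Finset (Fin b)).card = len c := by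
    intro τ c
    have h1 : (B τ c).card = b - len c := hB1 τ c
    rw [card_compl, Fintype.card_fin, h1]
    have := hlenb c
    omega
  let u : Equiv.Perm (Fin b) → (c : Fin N) → Fin (len c) → Fin b := fun τ c =>
    ((B τ c)ᶜ : Finset (Fin b)).orderEmbOfFin (hAcard τ c)
  have hu : ∀ τ c, Function.Injective (u τ c) := fun τ c =>
    (((B τ c)ᶜ : Finset (Fin b)).orderEmbOfFin (hAcard τ c)).injective
  have huA : ∀ τ c s, u τ c s ∉ B τ c := fun τ c s =>
    mem_compl.1 (orderEmbOfFin_mem _ (hAcard τ c) s)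
  have hur : ∀ τ c p, p ∉ B τ c → ∃ s, u τ c s = p := by
    intro τ c p hp
    have hr : p ∈ Set.range (((B τ c)ᶜ : Finset (Fin b)).orderEmbOfFin (hAcard τ c)) := by
      rw [range_orderEmbOfFin, mem_coe, mem_compl]
      exact hp
    exact hr
  let v : Equiv.Perm (Fin b) → (c : Fin N) → Fin (b - len c) → Fin b := fun τ c =>
    (B τ c).orderEmbOfFin (hB1 τ c)
  have hv : ∀ τ c, Function.Injective (v τ c) := fun τ c =>
    ((B τ c).orderEmbOfFin (hB1 τ c)).injective
  have hvA : ∀ τ c s, v τ c s ∈ B τ c := fun τ c s => orderEmbOfFin_mem _ _ s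
  have hvI : ∀ τ c, univ.image (v τ c) = B τ c := by
    intro τ c
    apply Finset.coe_injective
    rw [coe_image, coe_univ, Set.image_univ]
    exact range_orderEmbOfFin _ _
  have huv : ∀ τ c s s', u τ c s ≠ v τ c s' := fun τ c s s' h => huA τ c s (h ▸ hvA τ c s')
  -- the generic entries
  obtain ⟨G0, hG0⟩ := hO3 b r g cl y (Equiv.Perm (Fin b) × Fin N) (fun x => b - len x.2)
    (fun x => v x.1 x.2) hr (fun x => hR x.2) (fun x => hv x.1 x.2)
    (fun x => by rw [hvI]; exact hB3 x.1 x.2)
  have hG0' : ∀ τ c, (mn r cl y G0 (b - len c) (v τ c)).coeff (miss cl (B τ c)).card ≠ 0 := by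
    intro τ c
    have := hG0 (τ, c)
    simp only [hvI] at this
    exact this
  obtain ⟨G, hG1, hGD⟩ : ∃ G : Fin b → ℕ → ℂ,
      (∀ τ c, (mn r cl y G (b - len c) (v τ c)).coeff (miss cl (B τ c)).card ≠ 0) ∧
      ∀ _ : Fin N, (MM r cl y G).det ≠ 0 := by
    rcases Nat.eq_zero_or_pos N with hN | hN
    · subst hN
      exact ⟨G0, hG0', fun c => c.elim0⟩
    · obtain ⟨c0, -, hc0⟩ := exists_max_image (univ : Finset (Fin N)) (fun c => b - len c)
        ⟨⟨0, hN⟩, mem_univ _⟩
      obtain ⟨G, hG1, hG2⟩ := exG r cl y G0 (l := len c0) (L := b - len c0)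
        (by have := hlenb c0; omega) (hR c0) (u 1 c0) (v 1 c0) (hu 1 c0) (hv 1 c0) (huv 1 c0)
        (fun h => hG0' 1 c0 (by rw [h, coeff_zero]))
      refine ⟨G, fun τ c => ?_, fun _ => hG2⟩
      rw [← mn_congr r cl y G0 G (v τ c) fun w i hi => hG1 w i (lt_of_lt_of_le hi
        (hc0 c (mem_univ c)))]
      exact hG0' τ c
  have hdet := keyD hO1 hO2 hb cl y G hr hR hlenb hGD B u v hu hv huv hvI hG1 hB4
  -- a numerical point
  obtain ⟨t, ht⟩ := exists_eval hdet
  refine gt_le_of_family η hη d hd hds ?_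
  intro C ι _ _ len' hlen' hcol' J hJ hli
  refine orbit_prod len hlen len' hlen' ?_ (fun τ c s => τ.symm (u τ c s)) J ?_
    (fun w i => ((MM r cl y G).adjugate (rowF hb i) w).eval t) ?_ hli
  · intro i
    rw [hcol' i, hcol i]
  · intro τ β j
    have h1 : ∀ c, (univ.filter fun i => τ.symm (u τ c i) = j).card =
        if τ j ∈ B τ c then 0 else 1 := by
      intro c
      have hset : (univ.filter fun i => τ.symm (u τ c i) = j) =
          univ.filter fun i => u τ c i = τ j := by
        ext i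
        simp only [mem_filter, mem_univ, true_and]
        rw [Equiv.symm_apply_eq]
      rw [hset]
      split_ifs with h
      · rw [card_eq_zero, filter_eq_empty_iff]
        intro i _ hi
        exact huA τ c i (hi ▸ h)
      · obtain ⟨i0, hi0⟩ := hur τ c (τ j) h
        rw [card_eq_one]
        refine ⟨i0, ?_⟩
        ext i
        simp only [mem_filter, mem_univ, true_and, mem_singleton]
        constructor
        · intro hi
          exact hu τ c (hi.trans hi0.symm)
        · intro hi
          rw [hi]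
          exact hi0
    have h2 := hB2 τ (τ j)
    rw [dgr, Equiv.symm_apply_apply] at h2
    have h3 : (∑ c, if τ j ∈ B τ c then 0 else 1) +
        (univ.filter fun c => τ j ∈ B τ c).card = N := by
      rw [card_filter, ← sum_add_distrib]
      have h4 : ∀ c : Fin N, (if τ j ∈ B τ c then 0 else 1) + (if τ j ∈ B τ c then 1 else 0) =
          1 := fun c => by split_ifs <;> rfl
      rw [sum_congr rfl fun c _ => h4 c]
      simp
    rw [sum_congr rfl fun c _ => h1 c, hJ β j]
    have h5 := hadN j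
    have h6 := hda j
    omega
  · have e : (Matrix.of fun τ σ : Equiv.Perm (Fin b) =>
        ∏ c, dt (hlen c) (fun s => σ (τ.symm (u τ c s)))
          (fun w i => ((MM r cl y G).adjugate (rowF hb i) w).eval t)) =
        (evalRingHom t).mapMatrix (Matrix.of fun τ σ : Equiv.Perm (Fin b) =>
          ∏ c, (Matrix.of fun a s : Fin (len c) => (MM r cl y G).adjugate (rowF hb s)
            ((σ * τ⁻¹) (u τ c a))).det) := by
      ext τ σ
      rw [Matrix.of_apply, RingHom.mapMatrix_apply, Matrix.map_apply, Matrix.of_apply,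
        map_prod]
      refine prod_congr rfl fun c _ => ?_
      rw [dt, RingHom.map_det]
      congr 1
    rw [e, ← RingHom.map_det]
    exact ht

end Vale.Agent.P181.FD.H340
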