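import Vale.Agent.P181.FD.H340.DualT
import Vale.Agent.P181.FD.H422.Fat
import Vale.Agent.P181.TS.H187.Ord1
import Vale.Agent.P181.TS.H187.Ord2
import Vale.Agent.P181.TS.H187.Ord3

/-!
# P181, FD2: the orbit inequality for long columns, in the letters of `FD/H422/Fat.lean`
-/

set_option autoImplicit false

namespace Vale.Agent.P181.FD.H340

/-- **[FD2]**, no hypothesis -/
theorem matDualT_of (h1 : TS.Ord1) (h2 : TS.Ord2) (h3 : TS.Ord3) : FD.MatDualT :=
  fun a b N len lam η hb hD hl hη hc hs =>
    matDualTStep h1 h2 h3 a a b N len lam η hb hD (fun c => (hl c).1) hη hc hs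

theorem matDualT : FD.MatDualT :=
  matDualT_of TS.H187.ord1 TS.H187.ord2 TS.H187.ord3

end Vale.Agent.P181.FD.H340
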